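import Vale.Agent.P235.H536.PlaneDefs

/-!
P235 (helper745): plane graphs with ridges.  Definition only.
-/

namespace Vale.Agent.P235.Pf

/-- `G` is a plane graph, `E` is a union of connected sets, `h` is nonexpansive; every vertex
outside `E` has an edge of slope at least `1/D` downwards which ends outside `E`, or is in `A`, and
has one upwards (which may end in `E`), or is in `A'`; the number of the sets and the sizes of `A`
and `A'` are together at most `m` -/
def Ridges {V : Type} (G : SimpleGraph V) (ℓ : Sym2 V → ℝ) (D : ℝ) (m : ℕ) (E : Set V) : Prop :=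
  ∃ (σ : Equiv.Perm G.Dart) (h : V → ℝ) (A A' : Finset V) (k : ℕ) (L : Fin k → Set V),
    PlaneMap G σ ∧ A.card + A'.card + k ≤ m ∧ E = ⋃ i, L i ∧
    (∀ i, (G.induce (L i)).Preconnected) ∧
    (∀ u v, |h u - h v| ≤ pathDist G ℓ u v) ∧
    (∀ v, v ∉ E → (∃ u, u ∉ E ∧ G.Adj v u ∧ ℓ s(v, u) ≤ D * (h v - h u)) ∨ v ∈ A) ∧
    ∀ v, v ∉ E → (∃ u, G.Adj v u ∧ ℓ s(v, u) ≤ D * (h u - h v)) ∨ v ∈ A'

end Vale.Agent.P235.Pf
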